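import Mathlib
import Vale.Agent.Lib.P158.Swap

/-! # P158: geodesic rays and bigeodesics leave all strips -/

namespace Vale.Agent.Results.P158.StripFree

open MeasureTheory ProbabilityTheory Vale.Agent.P158

/-- both coordinates of the vertices of the ray `v` are unbounded, i.e. `v` is contained in no
horizontal and in no vertical strip -/
def LeavesStrips (v : ℕ → Vert) : Prop :=
  (∀ W : ℕ, ∃ k, (W : ℤ) < |(v k).1|) ∧ ∀ W : ℕ, ∃ k, (W : ℤ) < |(v k).2|

/-- Let the weights of the edges of the square lattice be independent with a common law `G` on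
`[0, ∞)` which is not concentrated in a point (for example any `G` without atoms). Almost surely
every geodesic ray, and both halves of every bigeodesic, leave all horizontal and vertical
strips. -/
theorem result {Ω : Type*} [MeasurableSpace Ω] (P : Measure Ω) [IsProbabilityMeasure P]
    (G : Measure ℝ) [IsProbabilityMeasure G] (h0 : G (Set.Iio 0) = 0) (hnd : ∀ x, G {x} ≠ 1)
    (t : Edge → Ω → ℝ) (hm : ∀ e, Measurable (t e)) (hind : iIndepFun t P)
    (hG : ∀ e, P.map (t e) = G) :
    (∀ᵐ ω ∂P, ∀ v : ℕ → Vert, IsRay (fun e => t e ω) v → LeavesStrips v) ∧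
    ∀ᵐ ω ∂P, ∀ v : ℤ → Vert, IsBigeodesic (fun e => t e ω) v →
      LeavesStrips (fun k => v k) ∧ LeavesStrips (fun k => v (-k)) := by
  obtain ⟨a, b, hab, ha, hb⟩ := exists_lt_of_nondeg G hnd
  have h1 := unbounded_fst (P := P) (t := t) hm hind hG h0 hab ha hb
  have h2 := unbounded_snd (P := P) (t := t) hm hind hG h0 hab ha hb
  constructor
  · filter_upwards [h1, h2] with ω hω1 hω2
    intro v hv
    exact ⟨hω1 v hv, hω2 v hv⟩
  · filter_upwards [h1, h2] with ω hω1 hω2
    intro v hv
    exact ⟨⟨hω1 _ hv.forward, hω2 _ hv.forward⟩, ⟨hω1 _ hv.backward, hω2 _ hv.backward⟩⟩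

end Vale.Agent.Results.P158.StripFree
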